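import Vale.Agent.P082.W
import Mathlib.Analysis.InnerProductSpace.PiL2

/-! Operator matrices (copied from the P096 library). -/

namespace Vale.Agent.P132.Op

open scoped InnerProductSpace

variable {K : Type*} [NormedAddCommGroup K] [InnerProductSpace ℂ K] [CompleteSpace K]

section op

variable {ι : Type*} [Fintype ι] [DecidableEq ι]

/-- Finite direct sum of copies of `K`. -/
abbrev Pw (ι K : Type*) := PiLp 2 fun _ : ι => K

/-- The operator of an operator matrix. -/
noncomputable def opL (X : Matrix ι ι (K →L[ℂ] K)) : Pw ι K →L[ℂ] Pw ι K :=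
  (PiLp.continuousLinearEquiv 2 ℂ fun _ : ι => K).symm.toContinuousLinearMap ∘L
    ContinuousLinearMap.pi fun i => ∑ j, X i j ∘L PiLp.proj 2 (fun _ : ι => K) j

omit [CompleteSpace K] [DecidableEq ι] in
lemma opL_apply (X : Matrix ι ι (K →L[ℂ] K)) (v : Pw ι K) (i : ι) :
    opL X v i = ∑ j, X i j (v j) := by simp [opL]

variable (K ι) in
/-- The operator of an operator matrix, as a star homomorphism. -/
noncomputable def op : Matrix ι ι (K →L[ℂ] K) →⋆ₐ[ℂ] (Pw ι K →L[ℂ] Pw ι K) where
  toFun := opL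
  map_one' := by ext v i; simp [opL_apply, Matrix.one_apply, DFunLike.ite_apply]
  map_mul' X Y := by
    ext v i
    simp only [opL_apply, Matrix.mul_apply, _root_.sum_apply,
      mul_apply_eq_comp, map_sum]
    exact Finset.sum_comm
  map_zero' := by ext v i; simp [opL_apply]
  map_add' X Y := by ext v i; simp [opL_apply, Finset.sum_add_distrib]
  commutes' c := by
    ext v i
    simp [opL_apply, Matrix.algebraMap_matrix_apply, DFunLike.ite_apply]
  map_star' X := by
    rw [ContinuousLinearMap.star_eq_adjoint, ContinuousLinearMap.eq_adjoint_iff]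
    intro v w
    simp only [PiLp.inner_apply, opL_apply, sum_inner, inner_sum, Matrix.star_apply,
      ContinuousLinearMap.star_eq_adjoint, ContinuousLinearMap.adjoint_inner_left]
    exact Finset.sum_comm

lemma op_apply (X : Matrix ι ι (K →L[ℂ] K)) (v : Pw ι K) (i : ι) :
    op K ι X v i = ∑ j, X i j (v j) := opL_apply X v i

omit [InnerProductSpace ℂ K] [CompleteSpace K] [DecidableEq ι] in
lemma norm_le_sum (v : Pw ι K) : ‖v‖ ≤ ∑ i, ‖v i‖ := by
  rw [PiLp.norm_eq_of_L2, Real.sqrt_le_iff]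
  exact ⟨Finset.sum_nonneg fun _ _ => norm_nonneg _,
    Finset.sum_sq_le_sq_sum_of_nonneg fun _ _ => norm_nonneg _⟩

lemma norm_op_le (X : Matrix ι ι (K →L[ℂ] K)) : ‖op K ι X‖ ≤ ∑ i, ∑ j, ‖X i j‖ := by
  refine ContinuousLinearMap.opNorm_le_bound _ (by positivity) fun v => (norm_le_sum _).trans ?_
  simp only [op_apply, Finset.sum_mul]
  exact Finset.sum_le_sum fun i _ => (norm_sum_le _ _).trans (Finset.sum_le_sum fun j _ =>
    ((X i j).le_opNorm _).trans (by gcongr; exact PiLp.norm_apply_le v j))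

/-- The matrix entry of an operator. -/
noncomputable def ent (T : Pw ι K →L[ℂ] Pw ι K) (i j : ι) : K →L[ℂ] K :=
  PiLp.proj 2 (fun _ : ι => K) i ∘L T ∘L
    (PiLp.continuousLinearEquiv 2 ℂ fun _ : ι => K).symm.toContinuousLinearMap ∘L
      ContinuousLinearMap.single ℂ (fun _ : ι => K) j

omit [CompleteSpace K] [Fintype ι] in
lemma ent_apply (T : Pw ι K →L[ℂ] Pw ι K) (i j : ι) (v : K) :
    ent T i j v = T (PiLp.single 2 j v) i := rfl

omit [CompleteSpace K] in
lemma norm_ent_le (T : Pw ι K →L[ℂ] Pw ι K) (i j : ι) : ‖ent T i j‖ ≤ ‖T‖ :=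
  ContinuousLinearMap.opNorm_le_bound _ T.opNorm_nonneg fun v => by
    rw [ent_apply]
    exact (PiLp.norm_apply_le _ i).trans ((T.le_opNorm _).trans (by rw [PiLp.norm_single]))

omit [CompleteSpace K] in
lemma apply_eq_sum_ent (T : Pw ι K →L[ℂ] Pw ι K) (v : Pw ι K) (i : ι) :
    T v i = ∑ j, ent T i j (v j) := by
  have : v = ∑ j, PiLp.single 2 j (v j) := by
    ext k; simp [Pi.single_apply]
  conv_lhs => rw [this]
  simp [ent_apply]

lemma ent_op (X : Matrix ι ι (K →L[ℂ] K)) (i j : ι) : ent (op K ι X) i j = X i j := by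
  ext v
  simp [ent_apply, op_apply, PiLp.single_apply, apply_ite (X i _)]

lemma norm_entry_le (X : Matrix ι ι (K →L[ℂ] K)) (i j : ι) : ‖X i j‖ ≤ ‖op K ι X‖ :=
  ent_op X i j ▸ norm_ent_le _ i j

variable (K ι) in
/-- Amplification. -/
noncomputable def amp :
    (K →L[ℂ] K) →⋆ₐ[ℂ] (Pw ι K →L[ℂ] Pw ι K) :=
  (op K ι).comp { Matrix.scalarAlgHom ι ℂ with
    map_star' := fun T => by
      ext i j
      simp [Matrix.diagonal_apply, eq_comm, apply_ite star] }

lemma amp_apply (T : K →L[ℂ] K) (v : Pw ι K) (i : ι) : amp K ι T v i = T (v i) := by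
  simp [amp, op_apply, Matrix.diagonal_apply, DFunLike.ite_apply]

end op

end Vale.Agent.P132.Op
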